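import Vale.Agent.P217.Main
import Vale.Agent.P217.Rigid

/-!
# P217, Q1: invariant primes and invariant radical ideals of the Lubin-Tate ring

The last clause says that an automorphism `α` with an isomorphism `φ : F ≅ α_* F` is determined by
its action on the residue field and by `φ` modulo the maximal ideal, that is by the element of the
extended stabilizer to which `(α, φ)` reduces.
-/

open Vale.Agent.P217

theorem Vale.Agent.Results.P217.InvariantPrimes.result :
    ∀ (p : ℕ) [Fact p.Prime] (n : ℕ), 0 < n →
    (∃ F : FormalGroup (LTRing p n), HasHazewinkelLog p n F) ∧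
    ∀ F : FormalGroup (LTRing p n), HasHazewinkelLog p n F →
      (∀ I : Ideal (LTRing p n),
        (I.IsPrime ∧ IsInvariant p n F I) ↔ ∃ h : ℕ, h ≤ n ∧ I = heightIdeal p n h) ∧
      (∀ I : Ideal (LTRing p n),
        (I.IsRadical ∧ IsInvariant p n F I) ↔
          (I = ⊤ ∨ ∃ h : ℕ, h ≤ n ∧ I = heightIdeal p n h)) ∧
      (∀ I : Ideal (LTRing p n), I.IsPrime → IsStabilizerInvariant p n F I →
        ∃ h : ℕ, h ≤ n ∧ I = heightIdeal p n h) ∧
      (∀ (α α' : LTRing p n ≃+* LTRing p n) (φ φ' : PowerSeries (LTRing p n)),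
        PowerSeries.constantCoeff φ = 0 → PowerSeries.constantCoeff φ' = 0 →
        IsUnit (PowerSeries.coeff 1 φ') →
        PowerSeries.subst F.toPowerSeries φ
          = MvPowerSeries.subst
              ![PowerSeries.subst (MvPowerSeries.X (0 : Fin 2)) φ,
                PowerSeries.subst (MvPowerSeries.X (1 : Fin 2)) φ]
              (F.map α.toRingHom).toPowerSeries →
        PowerSeries.subst F.toPowerSeries φ'
          = MvPowerSeries.subst
              ![PowerSeries.subst (MvPowerSeries.X (0 : Fin 2)) φ',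
                PowerSeries.subst (MvPowerSeries.X (1 : Fin 2)) φ']
              (F.map α'.toRingHom).toPowerSeries →
        (∀ x, α x - α' x ∈ IsLocalRing.maximalIdeal (LTRing p n)) →
        (∀ N, PowerSeries.coeff N (φ - φ') ∈ IsLocalRing.maximalIdeal (LTRing p n)) →
        α = α' ∧ φ = φ') := fun p _ n hn =>
  ⟨(invariant_ideals p n hn).1, fun F hF => by
    obtain ⟨h1, h2, h3⟩ := invariant_ideals_of_log p n hn hF
    refine ⟨h1, h2, h3, fun α α' φ φ' e1 e2 e3 e4 e5 hα hφ => ?_⟩
    refine lift_unique hn hF e1 e2 e3 e4 e5 (fun a => ?_) (fun N => ?_)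
    · rw [mIdeal_eq_maximalIdeal p n hn]; exact hα _
    · rw [mIdeal_eq_maximalIdeal p n hn]; exact hφ N⟩
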